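import Vale.Agent.P180.Finiteness

/-!
Donovan finiteness for groups with a p-solvable normal subgroup of bounded index.
-/

namespace Vale.Agent.Results.P180.VirtuallyPSolvable

open Vale.Agent.P180

universe u

theorem result (p : ℕ) [Fact p.Prime] (k : Type u) [Field k] [IsAlgClosed k] [CharP k p]
    (d m : ℕ) :
    ∃ (N : ℕ) (C : Fin N → Type u) (_ : ∀ i, Ring (C i)) (_ : ∀ i, Algebra k (C i)),
      ∀ (G : Type) [Group G] [Fintype G] (R : Subgroup G), R.Normal → IsPSolvable p R →
        R.index ≤ m → ∀ (b : MonoidAlgebra k G) (hb : IsBlock b) (D : Subgroup G),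
        IsDefectGroup k D b → Nat.card D ≤ d →
        ∃ i, IsMoritaEquivalent k hb.idem.Corner (C i) := by
  obtain ⟨N, C, iR, iA, h⟩ := exists_finite_classes (k := k) (p := p) d m
  refine ⟨N, C, iR, iA, fun G _ _ R hR hsol hidx b hb D hD hcard => ?_⟩
  obtain ⟨X, iX, iGX, a, ha, hX, hsum⟩ :=
    @bounded_of_isRelTrace k _ G _ _ D (Fintype.ofFinite _) b hD.prop
  exact h G _ (monoidTwBasis k G) b hb ⟨X, iX, iGX, a, ha, fun x => (hX x).trans hcard, hsum⟩
    ⟨R, hR, hidx, hsol.subPSolvable⟩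

end Vale.Agent.Results.P180.VirtuallyPSolvable
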